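import Vale.Agent.P017.H626.G3

/-!
# Finiteness of `X₀(15)(K)` for a positive proportion of the imaginary quadratic fields

`X015` is the modular curve `X₀(15)`, with its Weierstrass equation
`y² + xy + y = x³ + x² - 10x - 10` over `ℚ` (the curve `15a1` of Cremona's tables).
An imaginary quadratic field is determined, up to isomorphism, by its discriminant `-D`.
-/

universe u

open NumberField Vale.Agent.P017.H185 Vale.Agent.P017.H626 in
/-- For all large `X`, at least fifteen percent of the imaginary quadratic fields `K` with
`|discr K| ≤ X` are such that `X₀(15)(K)` is finite. -/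
theorem Vale.Agent.Results.P017.PositiveProportion.result :
    ∃ X₀ : ℕ, ∀ X : ℕ, X₀ ≤ X →
      (15 / 100 : ℝ) * {D : ℕ | D ≤ X ∧ IsDisc D}.ncard
        ≤ {D : ℕ | D ≤ X ∧ IsDisc D ∧
            ∀ (K : Type u) [Field K] [NumberField K] [Algebra.IsQuadraticExtension ℚ K]
              [IsTotallyComplex K], discr K = -(D : ℤ) →
              Finite (X015.baseChange K).toAffine.Point}.ncard := fifteen.{u}
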